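import Vale.Agent.P137.Defs

/-!
P137, passage module: weak limits of `L¹` bounded sequences that do not charge null compact sets.
-/

open MeasureTheory Metric Set Filter
open scoped ENNReal Topology CompactlySupported

noncomputable section

namespace Vale.Agent.P137

variable {d : ℕ}

/-- Along an ultrafilter the integrals against such a sequence converge to the integrals against
an integrable density. -/
theorem exists_density (q : ℕ → X d → ℝ) (hq0 : ∀ m x, 0 ≤ q m x)
    (hqi : ∀ m, Integrable (q m)) {A : ℝ} (hA0 : 0 ≤ A) (hA : ∀ m, ∫ x, q m x ≤ A)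
    (hnull : ∀ K : Set (X d), IsCompact K → volume K = 0 → ∀ ε : ℝ, 0 < ε →
      ∃ O, IsOpen O ∧ K ⊆ O ∧ ∀ᶠ m in atTop, ∫⁻ x in O, ENNReal.ofReal (q m x) ≤ ENNReal.ofReal ε)
    (𝒰 : Ultrafilter ℕ) (h𝒰 : (↑𝒰 : Filter ℕ) ≤ atTop) :
    ∃ w : X d → ℝ, Integrable w ∧ (∀ x, 0 ≤ w x) ∧ ∫ x, w x ≤ A ∧
      ∀ ψ : C_c(X d, ℝ),
        Tendsto (fun m => ∫ x, ψ x * q m x) (↑𝒰 : Filter ℕ) (𝓝 (∫ x, ψ x * w x)) := by
  have hmul : ∀ (ψ : C_c(X d, ℝ)) (m : ℕ), Integrable fun x => ψ x * q m x := by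
    intro ψ m
    obtain ⟨M, hM⟩ := ψ.hasCompactSupport.exists_bound_of_continuous ψ.continuous
    exact (hqi m).bdd_mul ψ.continuous.aestronglyMeasurable (Eventually.of_forall hM)
  have hlim : ∀ ψ : C_c(X d, ℝ),
      ∃ l, Tendsto (fun m => ∫ x, ψ x * q m x) (↑𝒰 : Filter ℕ) (𝓝 l) := by
    intro ψ
    obtain ⟨M, hM⟩ := ψ.hasCompactSupport.exists_bound_of_continuous ψ.continuous
    have hM0 : 0 ≤ M := le_trans (norm_nonneg _) (hM 0)
    have hb : ∀ m, (∫ x, ψ x * q m x) ∈ Icc (-(M * A)) (M * A) := by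
      intro m
      rw [mem_Icc, ← abs_le]
      calc |∫ x, ψ x * q m x| ≤ ∫ x, |ψ x * q m x| := abs_integral_le_integral_abs
        _ ≤ ∫ x, M * q m x := by
            refine integral_mono (hmul ψ m).abs ((hqi m).const_mul M) fun x => ?_
            rw [abs_mul, abs_of_nonneg (hq0 m x)]
            exact mul_le_mul_of_nonneg_right (hM x) (hq0 m x)
        _ ≤ M * A := by
            rw [integral_const_mul]; exact mul_le_mul_of_nonneg_left (hA m) hM0
    obtain ⟨l, -, hl⟩ := isCompact_Icc.ultrafilter_le_nhds (𝒰.map fun m => ∫ x, ψ x * q m x)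
      (by simp only [le_principal_iff, Ultrafilter.coe_map, mem_map]
          exact Eventually.of_forall hb)
    exact ⟨l, hl⟩
  choose L hL using hlim
  have hadd : ∀ ψ χ, L (ψ + χ) = L ψ + L χ := fun ψ χ =>
    tendsto_nhds_unique (hL (ψ + χ)) (((hL ψ).add (hL χ)).congr fun m => by
      rw [← integral_add (hmul ψ m) (hmul χ m)]
      simp [add_mul])
  have hsmul : ∀ (r : ℝ) ψ, L (r • ψ) = r * L ψ := fun r ψ =>
    tendsto_nhds_unique (hL (r • ψ)) (((hL ψ).const_mul r).congr fun m => by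
      rw [← integral_const_mul]
      simp [mul_assoc])
  set Λ : C_c(X d, ℝ) →ₚ[ℝ] ℝ := PositiveLinearMap.mk₀
    { toFun := L, map_add' := hadd, map_smul' := fun r ψ => by simpa using hsmul r ψ }
    (fun ψ hψ => ge_of_tendsto' (hL ψ) fun m => integral_nonneg fun x =>
      mul_nonneg (CompactlySupportedContinuousMap.le_def.1 hψ x) (hq0 m x)) with hΛ
  have hΛL : ∀ ψ, Λ ψ = L ψ := fun ψ => rfl
  set μ := RealRMK.rieszMeasure Λ with hμ
  -- compact sets are controlled by test functions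
  have hK : ∀ K : Set (X d), IsCompact K → ∀ (O : Set (X d)), IsOpen O → K ⊆ O → ∀ b : ℝ≥0∞,
      (∀ᶠ m in atTop, ∫⁻ x in O, ENNReal.ofReal (q m x) ≤ b) → μ K ≤ b := by
    intro K hKc O hO hKO b hb
    obtain ⟨g, hg1, hg0, hgc, hg01⟩ := exists_continuous_one_zero_of_isCompact hKc
      hO.isClosed_compl (disjoint_compl_right_iff_subset.2 hKO)
    set ψ : C_c(X d, ℝ) := ⟨g, hgc⟩ with hψ
    refine le_trans (RealRMK.rieszMeasure_le_of_eq_one Λ (f := ψ) (fun x => (hg01 x).1) hKc
      (fun x hx => hg1 hx)) ?_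
    rw [hΛL]
    refine le_of_tendsto (ENNReal.tendsto_ofReal (hL ψ)) ?_
    filter_upwards [h𝒰 hb] with m hm
    refine le_trans ?_ hm
    rw [ofReal_integral_eq_lintegral_ofReal (hmul ψ m)
      (Eventually.of_forall fun x => mul_nonneg (hg01 x).1 (hq0 m x)),
      ← lintegral_indicator hO.measurableSet]
    refine lintegral_mono fun x => ?_
    by_cases hx : x ∈ O
    · rw [indicator_of_mem hx]
      exact ENNReal.ofReal_le_ofReal (mul_le_of_le_one_left (hq0 m x) (hg01 x).2)
    · have h0 : g x = 0 := hg0 hx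
      simp [indicator_of_notMem hx, hψ, h0]
  have hμA : μ univ ≤ ENNReal.ofReal A := by
    rw [isOpen_univ.measure_eq_iSup_isCompact]
    refine iSup₂_le fun K _ => iSup_le fun hKc => ?_
    refine hK K hKc univ isOpen_univ (subset_univ _) _ (Eventually.of_forall fun m => ?_)
    rw [setLIntegral_univ, ← ofReal_integral_eq_lintegral_ofReal (hqi m)
      (Eventually.of_forall (hq0 m))]
    exact ENNReal.ofReal_le_ofReal (hA m)
  have : IsFiniteMeasure μ := ⟨lt_of_le_of_lt hμA ENNReal.ofReal_lt_top⟩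
  have hac : μ ≪ volume := by
    refine Measure.AbsolutelyContinuous.mk fun s hs hs0 => ?_
    by_contra hne
    obtain ⟨K, hKs, hKc, hKpos⟩ :=
      hs.exists_lt_isCompact_of_ne_top (measure_ne_top μ s) (pos_iff_ne_zero.2 hne)
    refine hKpos.ne' (le_antisymm ?_ zero_le)
    refine ENNReal.le_of_forall_pos_le_add fun ε hε _ => ?_
    obtain ⟨O, hO, hKO, hev⟩ := hnull K hKc (measure_mono_null hKs hs0) ε (by exact_mod_cast hε)
    simpa using hK K hKc O hO hKO _ hev
  refine ⟨fun x => (μ.rnDeriv volume x).toReal, Measure.integrable_toReal_rnDeriv,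
    fun x => ENNReal.toReal_nonneg, ?_, fun ψ => ?_⟩
  · rw [Measure.integral_toReal_rnDeriv hac, measureReal_def]
    exact ENNReal.toReal_le_of_le_ofReal hA0 hμA
  · have e : ∫ x, ψ x * (μ.rnDeriv volume x).toReal = L ψ := by
      rw [← hΛL, ← RealRMK.integral_rieszMeasure Λ ψ, ← hμ, ← integral_rnDeriv_smul hac]
      exact integral_congr_ae (Eventually.of_forall fun x => mul_comm _ _)
    rw [e]
    exact hL ψ

end Vale.Agent.P137
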