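import Vale.Agent.P137.Passage.Mollify

/-!
P137, passage module: elementary properties of the truncated maximal operators.
-/

open MeasureTheory Metric Set Filter
open scoped ENNReal Topology

noncomputable section

namespace Vale.Agent.P137

variable {d : ℕ}

/-- The admissible balls through `x`. -/
def balls (n : ℕ) (x : X d) : Set (X d × ℝ) :=
  {B | x ∈ ball B.1 B.2 ∧ (2:ℝ) ^ (-(n:ℤ)) ≤ B.2 ∧ B.2 < (2:ℝ) ^ (n:ℤ)}

/-- Bound for the averages at truncation `n`. -/
def Kn (d n : ℕ) : ℝ := (volume (ball (0 : X d) ((2:ℝ) ^ (-(n:ℤ))))).toReal⁻¹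

lemma Kn_nonneg (d n : ℕ) : 0 ≤ Kn d n := inv_nonneg.2 ENNReal.toReal_nonneg

lemma rangeMax_eq (n : ℕ) (a : X d → ℝ) (x : X d) :
    rangeMax n a x = max (a x) (sSup ((avg a) '' balls n x)) := rfl

lemma le_rangeMax (n : ℕ) (a : X d → ℝ) (x : X d) : a x ≤ rangeMax n a x := le_max_left _ _

lemma balls_nonempty {n : ℕ} (hn : 1 ≤ n) (x : X d) : (balls n x).Nonempty := by
  refine ⟨(x, 1), mem_ball_self one_pos, ?_, ?_⟩
  · exact zpow_le_one_of_nonpos₀ (by norm_num) (by omega)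
  · exact one_lt_zpow₀ (by norm_num) (by omega)

lemma balls_mono {n m : ℕ} (h : n ≤ m) (x : X d) : balls n x ⊆ balls m x := by
  rintro B ⟨h1, h2, h3⟩
  exact ⟨h1, le_trans (zpow_le_zpow_right₀ (by norm_num) (by omega)) h2,
    lt_of_lt_of_le h3 (zpow_le_zpow_right₀ (by norm_num) (by omega))⟩

lemma inv_vol_le {n : ℕ} {c : X d} {r : ℝ} (hr : (2:ℝ) ^ (-(n:ℤ)) ≤ r) :
    (volume (ball c r)).toReal⁻¹ ≤ Kn d n := by
  have h0 : (0:ℝ) < (2:ℝ) ^ (-(n:ℤ)) := zpow_pos (by norm_num) _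
  unfold Kn
  rw [Measure.addHaar_ball_center volume c r]
  refine inv_anti₀ ?_ (ENNReal.toReal_mono measure_ball_lt_top.ne (measure_mono (ball_subset_ball hr)))
  exact ENNReal.toReal_pos (measure_ball_pos volume _ h0).ne' measure_ball_lt_top.ne

lemma abs_avg_le_set {n : ℕ} {a : X d → ℝ} (ha : Integrable a) {B : X d × ℝ}
    (hr : (2:ℝ) ^ (-(n:ℤ)) ≤ B.2) {s : Set (X d)} (hs : ball B.1 B.2 ⊆ s) :
    |avg a B| ≤ Kn d n * ∫ y in s, |a y| := by
  rw [avg, abs_mul, abs_of_nonneg (inv_nonneg.2 ENNReal.toReal_nonneg)]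
  refine mul_le_mul (inv_vol_le hr) (le_trans (abs_integral_le_integral_abs) ?_) (abs_nonneg _)
    (Kn_nonneg d n)
  exact setIntegral_mono_set ha.abs.integrableOn (Eventually.of_forall fun y => abs_nonneg _)
    (Eventually.of_forall hs)

lemma avg_bddAbove {n : ℕ} {a : X d → ℝ} (ha : Integrable a) (x : X d) :
    BddAbove ((avg a) '' balls n x) := by
  refine ⟨Kn d n * ∫ y in univ, |a y|, ?_⟩
  rintro _ ⟨B, hB, rfl⟩
  exact le_trans (le_abs_self _) (abs_avg_le_set ha hB.2.1 (subset_univ _))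

lemma avg_sub_le {n : ℕ} {a b : X d → ℝ} (ha : Integrable a) (hb : Integrable b) {B : X d × ℝ}
    (hr : (2:ℝ) ^ (-(n:ℤ)) ≤ B.2) : |avg a B - avg b B| ≤ Kn d n * ∫ y, |a y - b y| := by
  have h := abs_avg_le_set (ha.sub hb) hr (subset_univ _)
  rw [setIntegral_univ] at h
  simp only [avg, Pi.sub_apply, integral_sub ha.integrableOn hb.integrableOn, mul_sub] at h
  exact h

lemma rangeMax_lip {n : ℕ} (hn : 1 ≤ n) {a b : X d → ℝ} (ha : Integrable a) (hb : Integrable b)
    (x : X d) : ‖rangeMax n a x - rangeMax n b x‖ₑ ≤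
      ‖a x - b x‖ₑ + ENNReal.ofReal (Kn d n) * ∫⁻ y, ‖a y - b y‖ₑ := by
  have e : ∫⁻ y, ‖a y - b y‖ₑ = ENNReal.ofReal (∫ y, |a y - b y|) := by
    have := (ofReal_integral_norm_eq_lintegral_enorm (ha.sub hb)).symm
    simpa [Real.norm_eq_abs] using this
  rw [e, ← ENNReal.ofReal_mul (Kn_nonneg d n), ← ofReal_norm, ← ofReal_norm,
    ← ENNReal.ofReal_add (norm_nonneg _) (mul_nonneg (Kn_nonneg d n)
      (integral_nonneg fun y => abs_nonneg _))]
  refine ENNReal.ofReal_le_ofReal ?_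
  simp only [Real.norm_eq_abs, rangeMax_eq]
  refine le_trans (abs_max_sub_max_le_max _ _ _ _) (max_le (le_add_of_nonneg_right
    (mul_nonneg (Kn_nonneg d n) (integral_nonneg fun y => abs_nonneg _))) ?_)
  refine le_add_of_nonneg_of_le (abs_nonneg _) ?_
  have hne := balls_nonempty hn x
  rw [abs_sub_le_iff]
  constructor
  · rw [sub_le_iff_le_add]
    refine csSup_le (hne.image _) ?_
    rintro _ ⟨B, hB, rfl⟩
    have h1 := le_csSup (avg_bddAbove hb x) (mem_image_of_mem (avg b) hB)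
    have h2 := abs_sub_le_iff.1 (avg_sub_le ha hb hB.2.1)
    linarith [h2.1]
  · rw [sub_le_iff_le_add]
    refine csSup_le (hne.image _) ?_
    rintro _ ⟨B, hB, rfl⟩
    have h1 := le_csSup (avg_bddAbove ha x) (mem_image_of_mem (avg a) hB)
    have h2 := abs_sub_le_iff.1 (avg_sub_le ha hb hB.2.1)
    linarith [h2.2]

lemma rangeMax_mono {n m : ℕ} (hn : 1 ≤ n) (h : n ≤ m) {a : X d → ℝ} (ha : Integrable a)
    (x : X d) : rangeMax n a x ≤ rangeMax m a x :=
  max_le_max le_rfl (csSup_le_csSup (avg_bddAbove ha x) ((balls_nonempty hn x).image _)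
    (image_mono (balls_mono h x)))

lemma measurable_rangeMax {n : ℕ} (hn : 1 ≤ n) {a : X d → ℝ} (ha : Integrable a)
    (ham : Measurable a) : Measurable (rangeMax n a) := by
  refine ham.max ?_
  refine LowerSemicontinuous.measurable (f := fun x => sSup ((avg a) '' balls n x)) ?_
  intro x t ht
  obtain ⟨_, ⟨B, hB, rfl⟩, hlt⟩ := exists_lt_of_lt_csSup ((balls_nonempty hn x).image _) ht
  filter_upwards [isOpen_ball.mem_nhds hB.1] with y hy
  exact lt_of_lt_of_le hlt
    (le_csSup (avg_bddAbove ha y) (mem_image_of_mem (avg a) ⟨hy, hB.2.1, hB.2.2⟩))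

lemma enorm_rangeMax_le {n : ℕ} (hn : 1 ≤ n) {a : X d → ℝ} (ha : Integrable a) (x : X d) :
    ‖rangeMax n a x‖ₑ ≤ ‖a x‖ₑ +
      ENNReal.ofReal (Kn d n) * ∫⁻ y in ball x ((2:ℝ) ^ (n + 1)), ‖a y‖ₑ := by
  set s := ball x ((2:ℝ) ^ (n + 1)) with hs
  have e : ∫⁻ y in s, ‖a y‖ₑ = ENNReal.ofReal (∫ y in s, |a y|) := by
    have := (ofReal_integral_norm_eq_lintegral_enorm (ha.integrableOn (s := s))).symm
    simpa [Real.norm_eq_abs] using this
  have hI : 0 ≤ ∫ y in s, |a y| := integral_nonneg fun y => abs_nonneg _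
  rw [e, ← ENNReal.ofReal_mul (Kn_nonneg d n), ← ofReal_norm, ← ofReal_norm,
    ← ENNReal.ofReal_add (norm_nonneg _) (mul_nonneg (Kn_nonneg d n) hI)]
  refine ENNReal.ofReal_le_ofReal ?_
  simp only [Real.norm_eq_abs]
  have hb : ∀ B ∈ balls n x, |avg a B| ≤ Kn d n * ∫ y in s, |a y| := by
    intro B hB
    refine abs_avg_le_set ha hB.2.1 fun y hy => ?_
    rw [hs, mem_ball]
    have h1 := mem_ball.1 hy
    have h2 := mem_ball.1 hB.1
    have h3 := hB.2.2
    rw [zpow_natCast] at h3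
    calc dist y x ≤ dist y B.1 + dist x B.1 := dist_triangle_right _ _ _
      _ < (2:ℝ) ^ (n + 1) := by rw [pow_succ]; linarith
  have hne := balls_nonempty hn x
  rw [rangeMax_eq, abs_le]
  constructor
  · refine le_trans ?_ (le_max_left _ _)
    linarith [neg_abs_le (a x), mul_nonneg (Kn_nonneg d n) hI]
  · refine max_le (le_trans (le_abs_self _) (le_add_of_nonneg_right
      (mul_nonneg (Kn_nonneg d n) hI))) ?_
    refine csSup_le (hne.image _) ?_
    rintro _ ⟨B, hB, rfl⟩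
    linarith [le_abs_self (avg a B), hb B hB, abs_nonneg (a x)]

lemma setLIntegral_ball_shift (g : X d → ℝ≥0∞) (c : X d) (ρ : ℝ) :
    ∫⁻ x in ball 0 ρ, g (x + c) = ∫⁻ x in ball c ρ, g x := by
  rw [← lintegral_indicator measurableSet_ball, ← lintegral_indicator measurableSet_ball,
    ← lintegral_add_right_eq_self ((ball c ρ).indicator g) c]
  refine lintegral_congr fun x => ?_
  by_cases hx : x ∈ ball (0 : X d) ρ
  · rw [indicator_of_mem hx, indicator_of_mem]
    simpa [mem_ball, dist_eq_norm] using hx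
  · rw [indicator_of_notMem hx, indicator_of_notMem]
    simpa [mem_ball, dist_eq_norm] using hx

lemma integrable_rangeMax {n : ℕ} (hn : 1 ≤ n) {a : X d → ℝ} (ha : Integrable a)
    (ham : Measurable a) : Integrable (rangeMax n a) := by
  refine ⟨(measurable_rangeMax hn ha ham).aestronglyMeasurable,
    hasFiniteIntegral_iff_enorm.2 ?_⟩
  set ρ : ℝ := (2:ℝ) ^ (n + 1) with hρ
  have hrep : ∀ x, ∫⁻ y in ball x ρ, ‖a y‖ₑ = ∫⁻ y in ball 0 ρ, ‖a (y + x)‖ₑ := fun x =>
    (setLIntegral_ball_shift (fun y => ‖a y‖ₑ) x ρ).symm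
  calc ∫⁻ x, ‖rangeMax n a x‖ₑ
      ≤ ∫⁻ x, ‖a x‖ₑ + ENNReal.ofReal (Kn d n) * ∫⁻ y in ball x ρ, ‖a y‖ₑ :=
        lintegral_mono fun x => enorm_rangeMax_le hn ha x
    _ = (∫⁻ x, ‖a x‖ₑ) + ENNReal.ofReal (Kn d n) *
          (volume (ball (0 : X d) ρ) * ∫⁻ x, ‖a x‖ₑ) := by
        rw [lintegral_add_left ham.enorm, lintegral_const_mul' _ _ ENNReal.ofReal_ne_top]
        congr 2
        simp only [hrep]
        rw [lintegral_lintegral_swap]
        · simp only [lintegral_add_left_eq_self (fun x => ‖a x‖ₑ)]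
          rw [setLIntegral_const, mul_comm]
        · exact Measurable.aemeasurable ((ham.comp (measurable_snd.add measurable_fst)).enorm)
    _ < ⊤ := ENNReal.add_lt_top.2 ⟨ha.2, ENNReal.mul_lt_top ENNReal.ofReal_lt_top
        (ENNReal.mul_lt_top measure_ball_lt_top ha.2)⟩

/-- An integrable function with a translation bound has uniformly bounded integral on a ball. -/
lemma setLIntegral_ball_le_of_shift (hd : 1 ≤ d) {u : X d → ℝ} (hum : Measurable u)
    (hu : Integrable u) {L : ℝ≥0∞}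
    (hL : ∀ v, ∫⁻ x, ‖u (x + v) - u x‖ₑ ≤ ENNReal.ofReal ‖v‖ * L) {ρ : ℝ} (hρ : 0 < ρ) :
    ∫⁻ x in ball 0 ρ, ‖u x‖ₑ ≤ ENNReal.ofReal (3 * ρ) * L := by
  set v : X d := EuclideanSpace.single ⟨0, hd⟩ (3 * ρ) with hv
  have hnv : ‖v‖ = 3 * ρ := by
    rw [hv, PiLp.norm_single, Real.norm_eq_abs, abs_of_pos (by positivity)]
  set Δ : X d → ℝ≥0∞ := fun x => ‖u (x + v) - u x‖ₑ with hΔ
  have hΔm : Measurable Δ := ((hum.comp (measurable_id.add_const v)).sub hum).enorm
  set B : ℕ → Set (X d) := fun k => ball ((k:ℝ) • v) ρ with hB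
  have hdisj : Pairwise (Function.onFun Disjoint B) := by
    intro i j hij
    refine ball_disjoint_ball ?_
    rw [dist_eq_norm, ← sub_smul, norm_smul, hnv, Real.norm_eq_abs]
    have : (1:ℝ) ≤ |(i:ℝ) - j| := by
      rcases Nat.lt_or_gt_of_ne hij with h | h
      · rw [abs_sub_comm]
        exact le_trans (by have : (i:ℝ) + 1 ≤ j := by exact_mod_cast h
                           linarith) (le_abs_self _)
      · exact le_trans (by have : (j:ℝ) + 1 ≤ i := by exact_mod_cast h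
                           linarith) (le_abs_self _)
    nlinarith
  have hstep : ∀ K : ℕ, ∫⁻ x in B 0, ‖u x‖ₑ ≤
      (∑ k ∈ Finset.range K, ∫⁻ x in B k, Δ x) + ∫⁻ x in B K, ‖u x‖ₑ := by
    intro K
    induction K with
    | zero => simp
    | succ K ih =>
      refine le_trans ih ?_
      rw [Finset.sum_range_succ, add_assoc]
      refine add_le_add le_rfl ?_
      have e : ∫⁻ x in B (K + 1), ‖u x‖ₑ = ∫⁻ x in B K, ‖u (x + v)‖ₑ := by
        simp only [hB]
        rw [← setLIntegral_ball_shift (fun x => ‖u x‖ₑ),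
          ← setLIntegral_ball_shift (fun x => ‖u (x + v)‖ₑ)]
        refine lintegral_congr fun x => ?_
        simp only [Nat.cast_add, Nat.cast_one, add_smul, one_smul, add_assoc]
      rw [e, ← lintegral_add_left hΔm]
      refine lintegral_mono fun x => ?_
      calc ‖u x‖ₑ = ‖-(u (x + v) - u x) + u (x + v)‖ₑ := by congr 1; ring
        _ ≤ _ := le_trans (enorm_add_le _ _) (by rw [enorm_neg])
  have hsum : ∀ K : ℕ, ∑ k ∈ Finset.range K, ∫⁻ x in B k, Δ x ≤ ENNReal.ofReal (3 * ρ) * L := by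
    intro K
    refine le_trans (ENNReal.sum_le_tsum _) ?_
    rw [← lintegral_iUnion (fun k => measurableSet_ball) hdisj Δ]
    exact le_trans (setLIntegral_le_lintegral _ _) (hnv ▸ hL v)
  have htail : Tendsto (fun K => ∫⁻ x in B K, ‖u x‖ₑ) atTop (𝓝 0) := by
    refine ENNReal.tendsto_atTop_zero_of_tsum_ne_top ?_
    rw [← lintegral_iUnion (fun k => measurableSet_ball) hdisj]
    exact ne_top_of_le_ne_top hu.2.ne (setLIntegral_le_lintegral _ _)
  have h0 : B 0 = ball 0 ρ := by simp [hB]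
  rw [← h0]
  have := le_of_tendsto_of_tendsto' tendsto_const_nhds
    ((tendsto_const_nhds (x := ENNReal.ofReal (3 * ρ) * L)).add htail)
    (fun K => (hstep K).trans (add_le_add (hsum K) le_rfl))
  rwa [add_zero] at this

lemma ofReal_avg {a : X d → ℝ} {f : X d → ℝ} (ha : Integrable a) (he : ∀ y, a y = |f y|)
    (c : X d) {r : ℝ} (hr : 0 < r) :
    ENNReal.ofReal (avg a (c, r)) = (volume (ball c r))⁻¹ * ∫⁻ y in ball c r, ‖f y‖ₑ := by
  have h0 : volume (ball c r) ≠ 0 := (measure_ball_pos volume c hr).ne'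
  rw [avg, ENNReal.ofReal_mul (inv_nonneg.2 ENNReal.toReal_nonneg), ← ENNReal.toReal_inv,
    ENNReal.ofReal_toReal (ENNReal.inv_ne_top.2 h0),
    ofReal_integral_eq_lintegral_ofReal ha.integrableOn
      (Eventually.of_forall fun y => by simp [he y])]
  congr 1
  refine lintegral_congr fun y => ?_
  rw [he y, ← Real.norm_eq_abs, ofReal_norm]

lemma ofReal_rangeMax_le_maxFun {n : ℕ} (hn : 1 ≤ n) {f a : X d → ℝ} (ha : Integrable a)
    (he : ∀ y, a y = |f y|) {x : X d} (hx : ENNReal.ofReal (a x) ≤ maxFun f x) :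
    ENNReal.ofReal (rangeMax n a x) ≤ maxFun f x := by
  rw [rangeMax_eq, ENNReal.ofReal_max]
  refine max_le hx (le_of_forall_lt fun t ht => ?_)
  have ht' : t ≠ ⊤ := ne_top_of_lt ht
  rw [ENNReal.lt_ofReal_iff_toReal_lt ht'] at ht
  obtain ⟨_, ⟨B, hB, rfl⟩, hlt⟩ := exists_lt_of_lt_csSup ((balls_nonempty hn x).image _) ht
  refine lt_of_lt_of_le ((ENNReal.lt_ofReal_iff_toReal_lt ht').2 hlt) ?_
  have hr : 0 < B.2 := lt_of_lt_of_le (zpow_pos (by norm_num) _) hB.2.1
  rw [ofReal_avg ha he B.1 hr]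
  exact le_iSup_of_le B.1 (le_iSup_of_le B.2 (le_iSup_of_le hB.1 le_rfl))

lemma maxFun_le_iSup {f a : X d → ℝ} (ha : Integrable a) (he : ∀ y, a y = |f y|) (x : X d) :
    maxFun f x ≤ ⨆ n : ℕ, ENNReal.ofReal (rangeMax (n + 1) a x) := by
  refine iSup_le fun c => iSup_le fun r => iSup_le fun hx => ?_
  have hr : 0 < r := lt_of_le_of_lt dist_nonneg hx
  rw [← ofReal_avg ha he c hr]
  obtain ⟨N₁, hN₁⟩ := pow_unbounded_of_one_lt r (by norm_num : (1:ℝ) < 2)
  obtain ⟨N₂, hN₂⟩ := exists_pow_lt_of_lt_one hr (by norm_num : (2:ℝ)⁻¹ < 1)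
  refine le_iSup_of_le (max N₁ N₂) (ENNReal.ofReal_le_ofReal ?_)
  refine le_trans (le_csSup (avg_bddAbove ha x) (mem_image_of_mem (avg a) ?_)) (le_max_right _ _)
  refine ⟨hx, le_trans ?_ hN₂.le, lt_of_lt_of_le hN₁ ?_⟩
  · rw [inv_pow, ← zpow_natCast, ← zpow_neg]
    exact zpow_le_zpow_right₀ (by norm_num) (by omega)
  · rw [← zpow_natCast]
    exact zpow_le_zpow_right₀ (by norm_num) (by omega)

lemma ae_ofReal_abs_le_maxFun {f : X d → ℝ} (hf : Integrable f) :
    ∀ᵐ x, ENNReal.ofReal |f x| ≤ maxFun f x := by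
  filter_upwards [(Besicovitch.vitaliFamily (volume : Measure (X d))).ae_tendsto_lintegral_div
    hf.1.aemeasurable.enorm hf.2.ne] with x hx
  rw [← Real.norm_eq_abs, ofReal_norm]
  refine le_of_tendsto (hx.comp (Besicovitch.tendsto_filterAt volume x)) ?_
  filter_upwards [self_mem_nhdsWithin] with r hr
  have hr' : 0 < r := hr
  have he : (closedBall x r : Set (X d)) =ᵐ[volume] ball x r := by
    refine (ae_eq_of_subset_of_measure_ge ball_subset_closedBall ?_
      measurableSet_ball.nullMeasurableSet measure_closedBall_lt_top.ne).symm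
    rw [← ball_union_sphere]
    refine le_trans (measure_union_le _ _) ?_
    rw [Measure.addHaar_sphere_of_ne_zero volume x hr'.ne', add_zero]
  simp only [Function.comp_apply]
  rw [setLIntegral_congr he, measure_congr he, div_eq_mul_inv, mul_comm]
  exact le_iSup_of_le x (le_iSup_of_le r (le_iSup_of_le (mem_ball_self hr') le_rfl))

end Vale.Agent.P137
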