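import Vale.Agent.P137.Defs

/-!
P137, passage module: translation bounds and mollification of a function with a weak gradient.
-/

open MeasureTheory Metric Set Filter
open scoped ENNReal Topology ContDiff Convolution

noncomputable section

namespace Vale.Agent.P137

variable {d : ℕ}

/-- Radius of the `k`-th mollifier. -/
def rad (k : ℕ) : ℝ := 1 / ((k:ℝ) + 1)

lemma rad_pos (k : ℕ) : 0 < rad k := by unfold rad; positivity

lemma tendsto_rad : Tendsto rad atTop (𝓝 0) := tendsto_one_div_add_atTop_nhds_zero_nat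

/-- The `k`-th bump. -/
def bump (k : ℕ) : ContDiffBump (0 : X d) :=
  ⟨rad k / 2, rad k, half_pos (rad_pos k), half_lt_self (rad_pos k)⟩

/-- The `k`-th mollifier. -/
def psi (k : ℕ) : X d → ℝ := (bump k).normed volume

/-- The `k`-th regularisation. -/
def moll (k : ℕ) (u : X d → ℝ) : X d → ℝ :=
  psi k ⋆[ContinuousLinearMap.lsmul ℝ ℝ, volume] u

lemma psi_nonneg (k : ℕ) (y : X d) : 0 ≤ psi k y := (bump k).nonneg_normed y

lemma psi_compact (k : ℕ) : HasCompactSupport (psi k : X d → ℝ) :=
  (bump k).hasCompactSupport_normed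

lemma psi_continuous (k : ℕ) : Continuous (psi k : X d → ℝ) := (bump k).continuous_normed

lemma psi_contDiff (k : ℕ) {n : ℕ∞} : ContDiff ℝ n (psi k : X d → ℝ) := (bump k).contDiff_normed

lemma norm_lt_of_psi_ne_zero {k : ℕ} {y : X d} (h : psi k y ≠ 0) : ‖y‖ < rad k := by
  have : y ∈ Function.support (psi k : X d → ℝ) := h
  rw [psi, (bump k).support_normed_eq, mem_ball_zero_iff] at this
  exact this

lemma lintegral_psi (k : ℕ) : ∫⁻ y, ENNReal.ofReal (psi k (y : X d)) = 1 := by
  unfold psi
  rw [← ofReal_integral_eq_lintegral_ofReal (bump k).integrable_normed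
    (Eventually.of_forall fun y => (bump k).nonneg_normed y)]
  simp [(bump k).integral_normed]

lemma moll_apply (k : ℕ) (u : X d → ℝ) (x : X d) :
    moll k u x = ∫ y, psi k y * u (x - y) := rfl

lemma integrable_psi_mul {u : X d → ℝ} (hu : LocallyIntegrable u) (k : ℕ) (x : X d) :
    Integrable fun y => psi k y * u (x - y) :=
  (psi_compact k).convolutionExists_left (L := ContinuousLinearMap.lsmul ℝ ℝ)
    (psi_continuous k) hu x

/-- Translating a set integral by a short vector. -/
lemma setLIntegral_shift_le (g : X d → ℝ≥0∞) {O : Set (X d)} (hO : MeasurableSet O) {a : X d}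
    {r : ℝ} (ha : ‖a‖ < r) : ∫⁻ x in O, g (x + a) ≤ ∫⁻ x in thickening r O, g x := by
  rw [← lintegral_indicator hO, ← lintegral_indicator isOpen_thickening.measurableSet,
    ← lintegral_add_right_eq_self ((thickening r O).indicator g) a]
  refine lintegral_mono fun x => ?_
  by_cases hx : x ∈ O
  · rw [indicator_of_mem hx, indicator_of_mem]
    exact mem_thickening_iff.2 ⟨x, hx, by simpa [dist_eq_norm] using ha⟩
  · simp [indicator_of_notMem hx]

lemma setLIntegral_moll_le {g : X d → ℝ≥0∞} (hg : Measurable g) {O : Set (X d)}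
    (hO : MeasurableSet O) (k : ℕ) {r : ℝ} (hr : rad k ≤ r) :
    ∫⁻ x in O, ∫⁻ y, ENNReal.ofReal (psi k y) * g (x - y) ≤ ∫⁻ x in thickening r O, g x := by
  rw [lintegral_lintegral_swap]
  · calc ∫⁻ y, ∫⁻ x in O, ENNReal.ofReal (psi k y) * g (x - y)
        ≤ ∫⁻ y, ENNReal.ofReal (psi k y) * ∫⁻ x in thickening r O, g x := by
          refine lintegral_mono fun y => ?_
          rw [lintegral_const_mul _ (by fun_prop)]
          by_cases hy : psi k y = 0
          · simp [hy]
          · refine mul_le_mul_right ?_ _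
            simp_rw [sub_eq_add_neg]
            exact setLIntegral_shift_le g hO
              (by rw [norm_neg]; exact lt_of_lt_of_le (norm_lt_of_psi_ne_zero hy) hr)
      _ = ∫⁻ x in thickening r O, g x := by
          rw [lintegral_mul_const _ (psi_continuous k).measurable.ennreal_ofReal, lintegral_psi,
            one_mul]
  · refine Measurable.aemeasurable ?_
    exact ((psi_continuous k).measurable.ennreal_ofReal.comp measurable_snd).mul
      (hg.comp (measurable_fst.sub measurable_snd))

lemma lintegral_moll_le {g : X d → ℝ≥0∞} (hg : Measurable g) (k : ℕ) :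
    ∫⁻ x, ∫⁻ y, ENNReal.ofReal (psi k y) * g (x - y) ≤ ∫⁻ x, g x := by
  have := setLIntegral_moll_le hg MeasurableSet.univ k le_rfl
  rw [setLIntegral_univ] at this
  exact this.trans (setLIntegral_le_lintegral _ _)

lemma enorm_moll_le (k : ℕ) (u : X d → ℝ) (x : X d) :
    ‖moll k u x‖ₑ ≤ ∫⁻ y, ENNReal.ofReal (psi k y) * ‖u (x - y)‖ₑ := by
  rw [moll_apply]
  refine le_trans (enorm_integral_le_lintegral_enorm _) (le_of_eq (lintegral_congr fun y => ?_))
  rw [enorm_mul, Real.enorm_eq_ofReal (psi_nonneg k y)]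

lemma moll_shift_sub {u : X d → ℝ} (hu : LocallyIntegrable u) (k : ℕ) (x v : X d) :
    moll k u (x + v) - moll k u x = moll k (fun z => u (z + v) - u z) x := by
  simp only [moll_apply]
  rw [← integral_sub (integrable_psi_mul hu k _) (integrable_psi_mul hu k _)]
  refine integral_congr_ae (Eventually.of_forall fun y => ?_)
  simp only [sub_add_eq_add_sub]
  ring

lemma enorm_moll_shift_le {u : X d → ℝ} (hu : LocallyIntegrable u) (k : ℕ) (x v : X d) :
    ‖moll k u (x + v) - moll k u x‖ₑ ≤
      ∫⁻ y, ENNReal.ofReal (psi k y) * ‖u (x - y + v) - u (x - y)‖ₑ := by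
  rw [moll_shift_sub hu]
  exact enorm_moll_le k _ x

lemma contDiff_moll {u : X d → ℝ} (hu : LocallyIntegrable u) (k : ℕ) {n : ℕ∞} :
    ContDiff ℝ n (moll k u) :=
  (psi_compact k).contDiff_convolution_left _ (psi_contDiff k) hu

lemma integrable_moll {u : X d → ℝ} (hu : Integrable u) (k : ℕ) : Integrable (moll k u) :=
  (bump k).integrable_normed.integrable_convolution _ hu

/-- The directional derivative of a regularisation. -/
lemma fderiv_moll {f Gi : X d → ℝ} (hf : LocallyIntegrable f) (i : Fin d)
    (hG : ∀ φ : X d → ℝ, ContDiff ℝ ∞ φ → HasCompactSupport φ →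
      ∫ x, f x * fderiv ℝ φ x (EuclideanSpace.single i 1) = -∫ x, Gi x * φ x)
    (k : ℕ) (x : X d) :
    fderiv ℝ (moll k f) x (EuclideanSpace.single i 1) = moll k Gi x := by
  set e : X d := EuclideanSpace.single i 1 with he
  have h1 : ContDiff ℝ 1 (psi k : X d → ℝ) := psi_contDiff k
  have hder := (psi_compact k).hasFDerivAt_convolution_left (ContinuousLinearMap.lsmul ℝ ℝ)
    (μ := volume) h1 hf x
  rw [moll, hder.fderiv, convolution_def]
  have hint : Integrable fun t => ((ContinuousLinearMap.lsmul ℝ ℝ).precompL (X d))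
      (fderiv ℝ (psi k) t) (f (x - t)) :=
    ((psi_compact k).fderiv ℝ).convolutionExists_left
      (L := (ContinuousLinearMap.lsmul ℝ ℝ : ℝ →L[ℝ] ℝ →L[ℝ] ℝ).precompL (X d))
      (h1.continuous_fderiv one_ne_zero) hf x
  rw [ContinuousLinearMap.integral_apply hint]
  change ∫ t, fderiv ℝ (psi k) t e * f (x - t) = ∫ t, psi k t * Gi (x - t)
  rw [← integral_sub_left_eq_self (fun t => fderiv ℝ (psi k) t e * f (x - t)) volume x,
    ← integral_sub_left_eq_self (fun t => psi k t * Gi (x - t)) volume x]
  simp only [sub_sub_cancel]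
  have hφ : ContDiff ℝ ∞ fun z : X d => psi k (x - z) :=
    (psi_contDiff k).comp (contDiff_const.sub contDiff_id)
  have hφc : HasCompactSupport fun z : X d => psi k (x - z) :=
    (psi_compact k).comp_homeomorph (Homeomorph.subLeft x)
  have key := hG _ hφ hφc
  have hd : ∀ z, fderiv ℝ (fun z : X d => psi k (x - z)) z e = -fderiv ℝ (psi k) (x - z) e := by
    intro z
    have : HasFDerivAt (fun z : X d => psi k (x - z))
        ((fderiv ℝ (psi k) (x - z)).comp (-ContinuousLinearMap.id ℝ (X d))) z :=
      ((h1.differentiable one_ne_zero).differentiableAt.hasFDerivAt).comp z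
        ((hasFDerivAt_id z).const_sub x)
    rw [this.fderiv]
    simp
  simp only [hd, mul_neg, integral_neg, neg_inj] at key
  simp only [mul_comm (psi k (x - _)), mul_comm (fderiv ℝ (psi k) (x - _) e)]
  exact key

lemma norm_apply_le_sum (T : X d →L[ℝ] ℝ) (v : X d) :
    ‖T v‖ ≤ ‖v‖ * ∑ i, ‖T (EuclideanSpace.single i 1)‖ := by
  have hv : v = ∑ i, v i • EuclideanSpace.single i (1:ℝ) := by
    ext j
    simp [Pi.single_apply]
  conv_lhs => rw [hv, map_sum]
  refine le_trans (norm_sum_le _ _) ?_
  rw [Finset.mul_sum]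
  refine Finset.sum_le_sum fun i _ => ?_
  rw [map_smul, norm_smul]
  exact mul_le_mul_of_nonneg_right (PiLp.norm_apply_le v i) (norm_nonneg _)

lemma enorm_apply_le_sum (T : X d →L[ℝ] ℝ) (v : X d) :
    ‖T v‖ₑ ≤ ENNReal.ofReal ‖v‖ * ∑ i, ‖T (EuclideanSpace.single i 1)‖ₑ := by
  simp only [← ofReal_norm]
  rw [← ENNReal.ofReal_sum_of_nonneg (fun i _ => norm_nonneg _),
    ← ENNReal.ofReal_mul (norm_nonneg _)]
  exact ENNReal.ofReal_le_ofReal (norm_apply_le_sum T v)

lemma enorm_le_sum (T : X d →L[ℝ] ℝ) : ‖T‖ₑ ≤ ∑ i, ‖T (EuclideanSpace.single i 1)‖ₑ := by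
  simp only [← ofReal_norm]
  rw [← ENNReal.ofReal_sum_of_nonneg (fun i _ => norm_nonneg _)]
  refine ENNReal.ofReal_le_ofReal (T.opNorm_le_bound (by positivity) fun v => ?_)
  rw [mul_comm]
  exact norm_apply_le_sum T v

/-- A smooth function changes by at most the integral of its derivative along the segment. -/
lemma enorm_shift_le {F : X d → ℝ} (hF : ContDiff ℝ 1 F) (x v : X d) :
    ‖F (x + v) - F x‖ₑ ≤ ∫⁻ t in Ioc (0:ℝ) 1, ‖fderiv ℝ F (x + t • v) v‖ₑ := by
  have hc : Continuous fun t : ℝ => fderiv ℝ F (x + t • v) v :=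
    ((hF.continuous_fderiv one_ne_zero).comp (by fun_prop)).clm_apply continuous_const
  have h : ∀ t : ℝ, HasDerivAt (fun t => F (x + t • v)) (fderiv ℝ F (x + t • v) v) t := by
    intro t
    have h2 : HasDerivAt (fun t : ℝ => x + t • v) v t := by
      simpa using ((hasDerivAt_id t).smul_const v).const_add x
    exact ((hF.differentiable one_ne_zero).differentiableAt.hasFDerivAt).comp_hasDerivAt t h2
  have e := intervalIntegral.integral_eq_sub_of_hasDerivAt (a := 0) (b := 1)
    (fun t _ => h t) (hc.intervalIntegrable _ _)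
  simp only [one_smul, zero_smul, add_zero] at e
  rw [← e, intervalIntegral.integral_of_le zero_le_one]
  exact enorm_integral_le_lintegral_enorm _

/-- The data attached to a Sobolev function. -/
structure Data (d : ℕ) where
  /-- the function -/
  f : X d → ℝ
  /-- its gradient -/
  G : Fin d → X d → ℝ
  hf : Integrable f
  hfm : Measurable f
  hG : ∀ i, Integrable (G i)
  hGm : ∀ i, Measurable (G i)
  hweak : IsWeakGrad f G

variable (D : Data d)

/-- The size of the gradient. -/
def Data.W (x : X d) : ℝ≥0∞ := ∑ i, ‖D.G i x‖ₑ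

lemma Data.measurable_W : Measurable D.W :=
  Finset.measurable_sum _ fun i _ => (D.hGm i).enorm

lemma Data.lintegral_W : ∫⁻ x, D.W x = ENNReal.ofReal (∑ i, ∫ x, |D.G i x|) := by
  unfold Data.W
  rw [lintegral_finsetSum _ fun i _ => (D.hGm i).enorm,
    ENNReal.ofReal_sum_of_nonneg fun i _ => integral_nonneg fun x => abs_nonneg _]
  refine Finset.sum_congr rfl fun i _ => ?_
  rw [← ofReal_integral_norm_eq_lintegral_enorm (D.hG i)]
  simp [Real.norm_eq_abs]

lemma Data.sum_enorm_fderiv_moll_le (k : ℕ) (x : X d) :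
    ∑ i, ‖fderiv ℝ (moll k D.f) x (EuclideanSpace.single i 1)‖ₑ ≤
      ∫⁻ y, ENNReal.ofReal (psi k y) * D.W (x - y) := by
  simp only [Data.W, Finset.mul_sum]
  rw [lintegral_finsetSum _ fun i _ => by
    exact (psi_continuous k).measurable.ennreal_ofReal.mul
      ((D.hGm i).comp (measurable_const.sub measurable_id)).enorm]
  refine Finset.sum_le_sum fun i _ => ?_
  rw [fderiv_moll D.hf.locallyIntegrable i (fun φ h1 h2 => D.hweak i φ h1 h2)]
  exact enorm_moll_le k _ x

/-- **Local translation bound** from the weak gradient. -/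
lemma Data.setLIntegral_shift_f {O : Set (X d)} (hO : MeasurableSet O) {v : X d} {ρ : ℝ}
    (hv : ‖v‖ < ρ) :
    ∫⁻ x in O, ‖D.f (x + v) - D.f x‖ₑ ≤
      ENNReal.ofReal ‖v‖ * ∫⁻ x in thickening ρ O, D.W x := by
  set ρ' : ℝ := (‖v‖ + ρ) / 2 with hρ'
  have h1 : ‖v‖ < ρ' := by rw [hρ']; linarith
  have hstep : ∀ᶠ k in atTop, ∫⁻ x in O, ‖moll k D.f (x + v) - moll k D.f x‖ₑ ≤
      ENNReal.ofReal ‖v‖ * ∫⁻ x in thickening ρ O, D.W x := by
    filter_upwards [(tendsto_order.1 tendsto_rad).2 (ρ - ρ') (by rw [hρ']; linarith)] with k hk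
    set S : X d → ℝ≥0∞ := fun z => ∫⁻ y, ENNReal.ofReal (psi k y) * D.W (z - y) with hS
    have hSm : Measurable S := Measurable.lintegral_prod_right'
      (f := fun p : X d × X d => ENNReal.ofReal (psi k p.2) * D.W (p.1 - p.2))
      (((psi_continuous k).measurable.ennreal_ofReal.comp measurable_snd).mul
        (D.measurable_W.comp (measurable_fst.sub measurable_snd)))
    calc ∫⁻ x in O, ‖moll k D.f (x + v) - moll k D.f x‖ₑ
        ≤ ∫⁻ x in O, ∫⁻ t in Ioc (0:ℝ) 1, ENNReal.ofReal ‖v‖ * S (x + t • v) := by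
          refine lintegral_mono fun x => le_trans
            (enorm_shift_le (contDiff_moll D.hf.locallyIntegrable k) x v)
            (lintegral_mono fun t => le_trans (enorm_apply_le_sum _ v)
              (mul_le_mul_right (D.sum_enorm_fderiv_moll_le k _) _))
      _ = ∫⁻ t in Ioc (0:ℝ) 1, ∫⁻ x in O, ENNReal.ofReal ‖v‖ * S (x + t • v) :=
          lintegral_lintegral_swap (Measurable.aemeasurable ((hSm.comp
            (measurable_fst.add (measurable_snd.smul_const v))).const_mul _))
      _ ≤ ∫⁻ _t in Ioc (0:ℝ) 1, ENNReal.ofReal ‖v‖ * ∫⁻ x in thickening ρ O, D.W x := by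
          refine setLIntegral_mono measurable_const fun t ht => ?_
          rw [lintegral_const_mul _ (by fun_prop)]
          refine mul_le_mul_right (le_trans (setLIntegral_shift_le S hO (r := ρ') ?_) ?_) _
          · rw [norm_smul, Real.norm_eq_abs, abs_of_pos ht.1]
            exact lt_of_le_of_lt (mul_le_of_le_one_left (norm_nonneg _) ht.2) h1
          · refine le_trans (setLIntegral_moll_le D.measurable_W
              isOpen_thickening.measurableSet k le_rfl) (lintegral_mono_set ?_)
            exact (thickening_thickening_subset _ _ _).trans (thickening_mono (by linarith) _)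
      _ = ENNReal.ofReal ‖v‖ * ∫⁻ x in thickening ρ O, D.W x := by simp
  have hae : ∀ᵐ x : X d, Tendsto (fun k => moll k D.f x) atTop (𝓝 (D.f x)) :=
    ContDiffBump.ae_convolution_tendsto_right_of_locallyIntegrable (φ := fun k => bump k)
      (K := 2) tendsto_rad (Eventually.of_forall fun k => le_of_eq (by simp [bump]; ring))
      D.hf.locallyIntegrable
  have hae2 : ∀ᵐ x : X d, Tendsto (fun k => moll k D.f (x + v)) atTop (𝓝 (D.f (x + v))) :=
    (measurePreserving_add_right volume v).quasiMeasurePreserving.ae hae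
  calc ∫⁻ x in O, ‖D.f (x + v) - D.f x‖ₑ
      = ∫⁻ x in O, liminf (fun k => ‖moll k D.f (x + v) - moll k D.f x‖ₑ) atTop := by
        refine lintegral_congr_ae ?_
        filter_upwards [ae_restrict_of_ae hae, ae_restrict_of_ae hae2] with x hx hx2
        exact ((continuous_enorm.tendsto _).comp (hx2.sub hx)).liminf_eq.symm
    _ ≤ liminf (fun k => ∫⁻ x in O, ‖moll k D.f (x + v) - moll k D.f x‖ₑ) atTop := by
        refine lintegral_liminf_le' fun k => ?_
        have := (contDiff_moll (n := 1) D.hf.locallyIntegrable k).continuous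
        exact (by fun_prop : Measurable fun x =>
          ‖moll k D.f (x + v) - moll k D.f x‖ₑ).aemeasurable
    _ ≤ _ := liminf_le_of_frequently_le' hstep.frequently

/-- The absolute value. -/
def Data.h (x : X d) : ℝ := |D.f x|

lemma Data.integrable_h : Integrable D.h := D.hf.abs

lemma Data.h_nonneg (x : X d) : 0 ≤ D.h x := abs_nonneg _

lemma Data.measurable_h : Measurable D.h := measurable_abs.comp D.hfm

lemma Data.setLIntegral_shift_h {O : Set (X d)} (hO : MeasurableSet O) {v : X d} {ρ : ℝ}
    (hv : ‖v‖ < ρ) :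
    ∫⁻ x in O, ‖D.h (x + v) - D.h x‖ₑ ≤
      ENNReal.ofReal ‖v‖ * ∫⁻ x in thickening ρ O, D.W x := by
  refine le_trans (lintegral_mono fun x => ?_) (D.setLIntegral_shift_f hO hv)
  rw [enorm_le_iff_norm_le]
  exact abs_abs_sub_abs_le_abs_sub _ _

lemma Data.lintegral_shift_h (v : X d) :
    ∫⁻ x, ‖D.h (x + v) - D.h x‖ₑ ≤ ENNReal.ofReal ‖v‖ * ∫⁻ x, D.W x := by
  have := D.setLIntegral_shift_h MeasurableSet.univ (v := v) (ρ := ‖v‖ + 1) (by linarith)
  rw [setLIntegral_univ] at this
  exact this.trans (mul_le_mul_right (setLIntegral_le_lintegral _ _) _)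

/-- The regular approximations of the absolute value. -/
def Data.reg (k : ℕ) : X d → ℝ := moll k D.h

lemma Data.reg_shift (k : ℕ) (v : X d) :
    ∫⁻ x, ‖D.reg k (x + v) - D.reg k x‖ₑ ≤ ∫⁻ x, ‖D.h (x + v) - D.h x‖ₑ := by
  refine le_trans (lintegral_mono fun x =>
    enorm_moll_shift_le D.integrable_h.locallyIntegrable k x v) ?_
  have := D.measurable_h
  exact lintegral_moll_le (g := fun z => ‖D.h (z + v) - D.h z‖ₑ) (by fun_prop) k

lemma Data.setLIntegral_fderiv_reg {O : Set (X d)} (hO : MeasurableSet O) (k : ℕ) {ρ : ℝ}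
    (hρ : rad k < ρ) :
    ∫⁻ x in O, ‖fderiv ℝ (D.reg k) x‖ₑ ≤ d * ∫⁻ x in thickening ρ O, D.W x := by
  have hC : ContDiff ℝ 1 (D.reg k) := contDiff_moll D.integrable_h.locallyIntegrable k
  have hcf := hC.continuous_fderiv one_ne_zero
  have hc := hC.continuous
  calc ∫⁻ x in O, ‖fderiv ℝ (D.reg k) x‖ₑ
      ≤ ∫⁻ x in O, ∑ i, ‖fderiv ℝ (D.reg k) x (EuclideanSpace.single i 1)‖ₑ :=
        lintegral_mono fun x => enorm_le_sum _
    _ = ∑ i, ∫⁻ x in O, ‖fderiv ℝ (D.reg k) x (EuclideanSpace.single i 1)‖ₑ :=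
        lintegral_finsetSum _ fun i _ => (hcf.clm_apply continuous_const).measurable.enorm
    _ ≤ ∑ _i : Fin d, ∫⁻ x in thickening ρ O, D.W x := by
        refine Finset.sum_le_sum fun i _ => ?_
        set e : X d := EuclideanSpace.single i 1 with he
        set t : ℕ → ℝ := fun m => rad m with ht
        have hlim : ∀ x, Tendsto (fun m => ‖(t m)⁻¹ * (D.reg k (x + t m • e) - D.reg k x)‖ₑ)
            atTop (𝓝 ‖fderiv ℝ (D.reg k) x e‖ₑ) := by
          intro x
          refine (continuous_enorm.tendsto _).comp ?_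
          have hd := ((hC.differentiable one_ne_zero).differentiableAt (x := x)).hasFDerivAt
          exact (hd.hasLineDerivAt e).tendsto_slope_zero.comp
            (tendsto_nhdsWithin_iff.2 ⟨tendsto_rad, Eventually.of_forall fun m => (rad_pos m).ne'⟩)
        calc ∫⁻ x in O, ‖fderiv ℝ (D.reg k) x e‖ₑ
            = ∫⁻ x in O, liminf
              (fun m => ‖(t m)⁻¹ * (D.reg k (x + t m • e) - D.reg k x)‖ₑ) atTop :=
              lintegral_congr fun x => (hlim x).liminf_eq.symm
          _ ≤ liminf (fun m => ∫⁻ x in O,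
              ‖(t m)⁻¹ * (D.reg k (x + t m • e) - D.reg k x)‖ₑ) atTop :=
              lintegral_liminf_le' fun m => (by fun_prop : Measurable fun x =>
                ‖(t m)⁻¹ * (D.reg k (x + t m • e) - D.reg k x)‖ₑ).aemeasurable
          _ ≤ _ := by
              refine liminf_le_of_frequently_le' (Eventually.frequently ?_)
              filter_upwards [(tendsto_order.1 tendsto_rad).2 (ρ - rad k) (by linarith)] with m hm
              have hne : ‖t m • e‖ = t m := by
                rw [norm_smul, he, PiLp.norm_single, norm_one, mul_one,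
                  Real.norm_eq_abs, abs_of_pos (rad_pos m)]
              simp only [enorm_mul]
              rw [lintegral_const_mul _ (by fun_prop)]
              have := D.measurable_h
              have key : ∫⁻ x in O, ‖D.reg k (x + t m • e) - D.reg k x‖ₑ ≤
                  ENNReal.ofReal (t m) * ∫⁻ x in thickening ρ O, D.W x := by
                refine le_trans (lintegral_mono fun x =>
                  enorm_moll_shift_le D.integrable_h.locallyIntegrable k x _) ?_
                refine le_trans (setLIntegral_moll_le (g := fun z =>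
                  ‖D.h (z + t m • e) - D.h z‖ₑ) (by fun_prop) hO k le_rfl) ?_
                refine le_trans (D.setLIntegral_shift_h isOpen_thickening.measurableSet
                  (ρ := ρ - rad k) (by rw [hne]; exact hm)) ?_
                rw [hne]
                refine mul_le_mul_right (lintegral_mono_set ?_) _
                exact (thickening_thickening_subset _ _ _).trans (thickening_mono (by linarith) _)
              refine le_trans (mul_le_mul_right key _) (le_of_eq ?_)
              rw [← mul_assoc, Real.enorm_eq_ofReal (inv_nonneg.2 (rad_pos m).le),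
                ← ENNReal.ofReal_mul (inv_nonneg.2 (rad_pos m).le),
                inv_mul_cancel₀ (rad_pos m).ne', ENNReal.ofReal_one, one_mul]
    _ = d * ∫⁻ x in thickening ρ O, D.W x := by simp

lemma Data.lintegral_fderiv_reg (k : ℕ) :
    ∫⁻ x, ‖fderiv ℝ (D.reg k) x‖ₑ ≤ d * ∫⁻ x, D.W x := by
  have := D.setLIntegral_fderiv_reg MeasurableSet.univ k (ρ := rad k + 1) (by linarith)
  rw [setLIntegral_univ] at this
  exact this.trans (mul_le_mul_right (setLIntegral_le_lintegral _ _) _)

lemma Data.lintegral_W_ne_top : ∫⁻ x, D.W x ≠ ⊤ := by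
  rw [D.lintegral_W]; exact ENNReal.ofReal_ne_top

lemma Data.coreFun_reg (k : ℕ) : CoreFun (D.reg k) := by
  refine ⟨contDiff_moll D.integrable_h.locallyIntegrable k, integrable_moll D.integrable_h k,
    fun x => ?_, lt_of_le_of_lt (D.lintegral_fderiv_reg k)
      (ENNReal.mul_lt_top (ENNReal.natCast_lt_top d) D.lintegral_W_ne_top.lt_top)⟩
  exact integral_nonneg fun y => mul_nonneg (psi_nonneg k y) (D.h_nonneg _)

lemma Data.lintegral_reg_sub (k : ℕ) :
    ∫⁻ x, ‖D.reg k x - D.h x‖ₑ ≤ ENNReal.ofReal (rad k) * ∫⁻ x, D.W x := by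
  have := D.measurable_h
  have h1 : ∀ x, ‖D.reg k x - D.h x‖ₑ ≤
      ∫⁻ y, ENNReal.ofReal (psi k y) * ‖D.h (x + -y) - D.h x‖ₑ := by
    intro x
    have e : D.reg k x - D.h x = ∫ y, psi k y * (D.h (x + -y) - D.h x) := by
      simp only [mul_sub, ← sub_eq_add_neg]
      have hi : Integrable fun y : X d => psi k y * D.h x :=
        (bump k).integrable_normed.mul_const _
      rw [integral_sub (integrable_psi_mul D.integrable_h.locallyIntegrable k x) hi,
        integral_mul_const, Data.reg, moll_apply]
      simp [psi, (bump k).integral_normed]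
    rw [e]
    refine le_trans (enorm_integral_le_lintegral_enorm _) (le_of_eq (lintegral_congr fun y => ?_))
    rw [enorm_mul, Real.enorm_eq_ofReal (psi_nonneg k y)]
  refine le_trans (lintegral_mono h1) ?_
  rw [lintegral_lintegral_swap]
  swap
  · exact Measurable.aemeasurable
      (((psi_continuous k).measurable.ennreal_ofReal.comp measurable_snd).mul
        (((this.comp (measurable_fst.add measurable_snd.neg)).sub
          (this.comp measurable_fst)).enorm))
  calc ∫⁻ y, ∫⁻ x, ENNReal.ofReal (psi k y) * ‖D.h (x + -y) - D.h x‖ₑ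
      ≤ ∫⁻ y, ENNReal.ofReal (psi k y) * (ENNReal.ofReal (rad k) * ∫⁻ x, D.W x) := by
        refine lintegral_mono fun y => ?_
        rw [lintegral_const_mul _ (by fun_prop)]
        by_cases hy : psi k y = 0
        · simp [hy]
        · refine mul_le_mul_right (le_trans (D.lintegral_shift_h (-y)) ?_) _
          rw [norm_neg]
          exact mul_le_mul_left (ENNReal.ofReal_le_ofReal (norm_lt_of_psi_ne_zero hy).le) _
    _ = _ := by
        rw [lintegral_mul_const _ (psi_continuous k).measurable.ennreal_ofReal, lintegral_psi,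
          one_mul]

lemma Data.tendsto_reg : Tendsto (fun k => ∫⁻ x, ‖D.reg k x - D.h x‖ₑ) atTop (𝓝 0) := by
  refine tendsto_of_tendsto_of_tendsto_of_le_of_le tendsto_const_nhds ?_ (fun k => zero_le)
    (fun k => D.lintegral_reg_sub k)
  simpa using ENNReal.Tendsto.mul_const (ENNReal.tendsto_ofReal tendsto_rad)
    (Or.inr D.lintegral_W_ne_top)

end Vale.Agent.P137
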